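import Mathlib.Analysis.InnerProductSpace.PiL2

namespace Vale.Agent.P058

/-- `A ⊆ ℝ^d` is Ramsey: for every number `r ≥ 2` of colours there is a dimension `D ≥ 1` such
that every colouring of `ℝ^D` with `r` colours is constant on the image of `A` under some map
preserving all distances between points of `A`. -/
def IsRamsey {d : ℕ} (A : Set (EuclideanSpace ℝ (Fin d))) : Prop :=
  ∀ r : ℕ, 2 ≤ r → ∃ D : ℕ, 1 ≤ D ∧ ∀ c : EuclideanSpace ℝ (Fin D) → Fin r,
    ∃ f : EuclideanSpace ℝ (Fin d) → EuclideanSpace ℝ (Fin D),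
      (∀ x ∈ A, ∀ y ∈ A, dist (f x) (f y) = dist x y) ∧ ∃ i : Fin r, ∀ x ∈ A, c (f x) = i

/-- `A` lies on a sphere. -/
def IsSpherical {d : ℕ} (A : Set (EuclideanSpace ℝ (Fin d))) : Prop :=
  ∃ (z : EuclideanSpace ℝ (Fin d)) (ρ : ℝ), ∀ x ∈ A, dist x z = ρ

end Vale.Agent.P058
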