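import Mathlib.Analysis.InnerProductSpace.PiL2
import Mathlib.Data.Finsupp.Basic

namespace Vale.Agent.P058

/-- the affine functional `v ↦ ∑ i, a i * v i + b` -/
def affv {n : ℕ} (a : Fin n → ℝ) (b : ℝ) (v : EuclideanSpace ℝ (Fin n)) : ℝ :=
  ∑ i, a i * v i + b

/-- `A` has a balanced profile with weights satisfying `P`: there are affine functionals
`y_j = affv (a j) (b j)` and integers `m j` satisfying `P` such that the element
`∑ j, m j [y_j v]` of the free abelian group on `ℝ` is the same for all `v ∈ A`, and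
`∑ j, m j (y_j v - y_j w)² = |v - w|²` for all `v, w ∈ A`. -/
def HasProfile {n : ℕ} (P : ℤ → Prop) (A : Set (EuclideanSpace ℝ (Fin n))) : Prop :=
  ∃ (k : ℕ) (m : Fin k → ℤ) (a : Fin k → Fin n → ℝ) (b : Fin k → ℝ), (∀ j, P (m j)) ∧
    ∀ v ∈ A, ∀ w ∈ A,
      ∑ j, Finsupp.single (affv (a j) (b j) v) (m j) =
        ∑ j, Finsupp.single (affv (a j) (b j) w) (m j) ∧
      ∑ j, (m j : ℝ) * (affv (a j) (b j) v - affv (a j) (b j) w) ^ 2 = dist v w ^ 2

end Vale.Agent.P058
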