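import Vale.Agent.P058.Defs

namespace Vale.Agent.P058

/-- `X ⊆ ℝ^n` is transitive: the isometries of `ℝ^n` mapping `X` onto itself act transitively on
`X`. -/
def IsTransitive {n : ℕ} (X : Set (EuclideanSpace ℝ (Fin n))) : Prop :=
  ∀ x ∈ X, ∀ y ∈ X, ∃ g : EuclideanSpace ℝ (Fin n) ≃ᵢ EuclideanSpace ℝ (Fin n),
    g '' X = X ∧ g x = y

/-- `A ⊆ ℝ^d` is subtransitive: it is congruent to a subset of a finite transitive set. -/
def IsSubtransitive {d : ℕ} (A : Set (EuclideanSpace ℝ (Fin d))) : Prop :=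
  ∃ (n : ℕ) (X : Set (EuclideanSpace ℝ (Fin n)))
    (f : EuclideanSpace ℝ (Fin d) → EuclideanSpace ℝ (Fin n)),
    X.Finite ∧ IsTransitive X ∧ (∀ x ∈ A, f x ∈ X) ∧ ∀ x ∈ A, ∀ y ∈ A, dist (f x) (f y) = dist x y

end Vale.Agent.P058
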