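import Mathlib.Algebra.AlgebraicCard
import Mathlib.Algebra.Group.ForwardDiff
import Mathlib.Algebra.Group.MinimalAxioms
import Mathlib.Algebra.Module.StablyFree.Basic
import Mathlib.Algebra.MvPolynomial.Comap
import Mathlib.Algebra.MvPolynomial.Expand
import Mathlib.Algebra.MvPolynomial.Funext
import Mathlib.Algebra.Order.Archimedean.Real.Hom
import Mathlib.Algebra.Ring.Action.Pointwise.Finset
import Mathlib.Algebra.Ring.IsFormallyReal
import Mathlib.Analysis.InnerProductSpace.GramMatrix
import Mathlib.Analysis.Real.Cardinality
import Mathlib.Analysis.SpecialFunctions.Trigonometric.Bounds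
import Mathlib.Combinatorics.HalesJewett
import Mathlib.Combinatorics.Hindman
import Mathlib.Computability.Reduce
import Mathlib.Data.Finset.Functor
import Mathlib.Data.Int.Star
import Mathlib.Data.Rat.Star
import Mathlib.LinearAlgebra.Matrix.Swap
import Mathlib.Order.CompletePartialOrder
import Mathlib.RingTheory.Etale.Field
import Mathlib.RingTheory.Flat.TorsionFree
import Mathlib.RingTheory.Henselian
import Mathlib.RingTheory.RegularLocalRing.Defs
import Mathlib.RingTheory.SimpleRing.Principal
import Mathlib.Tactic
import Mathlib.Topology.GDelta.MetrizableSpace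

/-! The part of Mathlib that the development of this folder uses. -/
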